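import Vale.Agent.P066.Multi.MainId
import Vale.Agent.P066.Multi.T3
import Vale.Agent.P066.Multi.S

set_option autoImplicit false

namespace Vale.Agent.Results.P066.Multicolourings

open Vale.Agent.P066 Vale.Agent.P066.Multi

/-- **The Shareshian-Wachs conjecture, for multicolourings and with the factor of the twins.**
For every weakly increasing `h` the coefficients of the (unique) expansion of the chromatic
quasisymmetric function of the natural unit interval graph `G(h)` in the elementary basis, in any
number `N` of variables and in countably many variables, lie in `ℕ[q]`, and so do their quotients by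
the product of the `q`-factorials of the sizes of the classes of closed twins. The same
positivity holds for the `m`-fold colourings of `G(h)`, for every `m`. -/
theorem result {n : ℕ} (h : Fin n → Fin n) (hmono : Monotone h) :
    (∃ c d : n.Partition → Polynomial ℤ, (∀ p k, 0 ≤ (c p).coeff k) ∧
      (∀ p k, 0 ≤ (d p).coeff k) ∧
      (∀ p, c p = twinFactor (unitIntervalGraph h) * d p) ∧
      (∀ c' : n.Partition → Polynomial ℤ,
        (∀ N, chromaticQSF (unitIntervalGraph h) N =
          ∑ p : n.Partition,
            MvPolynomial.C (c' p) * MvPolynomial.esymmPart (Fin N) (Polynomial ℤ) p) ↔ c' = c) ∧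
      ∀ c' : n.Partition → Polynomial ℤ,
        chromaticSeries (unitIntervalGraph h) =
          ∑ p : n.Partition, MvPowerSeries.C (c' p) * eSeriesPart p ↔ c' = c) ∧
    ∀ m : Fin n → ℕ, ∃ c : (∑ a, m a).Partition → Polynomial ℤ, (∀ p k, 0 ≤ (c p).coeff k) ∧
      ∀ c' : (∑ a, m a).Partition → Polynomial ℤ,
        (∀ N, multichromaticQSF (unitIntervalGraph h) m N =
          ∑ p : (∑ a, m a).Partition,
            MvPolynomial.C (c' p) * MvPolynomial.esymmPart (Fin N) (Polynomial ℤ) p) ↔
          c' = c := by
  refine ⟨?_, multi h hmono⟩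
  -- the multicolouring theorem for the weights of the twin classes
  have hw : ∀ (e : ℕ) (m : Fin n → ℕ), ∑ a, m a = e → ∃ d : e.Partition → Polynomial ℤ,
      (∀ p k, 0 ≤ (d p).coeff k) ∧ ∀ N, multichromaticQSF (unitIntervalGraph h) m N =
        ∑ p : e.Partition,
          MvPolynomial.C (d p) * MvPolynomial.esymmPart (Fin N) (Polynomial ℤ) p := by
    intro e m he
    subst he
    obtain ⟨d, hd, hu⟩ := multi h hmono m
    exact ⟨d, hd, (hu d).2 rfl⟩
  obtain ⟨d, hd, hdE⟩ := hw n (twinWeight (unitIntervalGraph h)) (sum_twinWeight _)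
  obtain ⟨c, hc, hcE⟩ := hw n (fun _ => 1) (by simp)
  have hexp : ∀ N, chromaticQSF (unitIntervalGraph h) N = ∑ p : n.Partition,
      MvPolynomial.C (c p) * MvPolynomial.esymmPart (Fin N) (Polynomial ℤ) p := fun N => by
    rw [chromatic_eq_multi_one]
    exact hcE N
  have huniq : ∀ c' : n.Partition → Polynomial ℤ,
      (∀ N, chromaticQSF (unitIntervalGraph h) N =
        ∑ p : n.Partition,
          MvPolynomial.C (c' p) * MvPolynomial.esymmPart (Fin N) (Polynomial ℤ) p) ↔ c' = c :=
    fun c' => ⟨fun h' => expansion_unique le_rfl c' c ((h' n).symm.trans (hexp n)),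
      fun h' => by rw [h']; exact hexp⟩
  have htw : (fun p => twinFactor (unitIntervalGraph h) * d p) = c := by
    refine (huniq _).1 fun N => ?_
    rw [chromatic_eq_twins h hmono N, hdE N, Finset.mul_sum]
    exact Finset.sum_congr rfl fun p _ => by rw [MvPolynomial.C_mul, mul_assoc]
  exact ⟨c, d, hc, hd, fun p => (congrFun htw p).symm, huniq,
    fun c' => (series_iff _ c').trans (huniq c')⟩

end Vale.Agent.Results.P066.Multicolourings
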