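import Vale.Agent.P066.Theta.Top3
import Vale.Agent.P066.Lab.LA
import Vale.Agent.P066.Lab.LSW.W2
import Vale.Agent.P066.Lab.LSW.W4
import Vale.Agent.P066.Lab.H69.W1
import Vale.Agent.P066.Lab.H402.W0
import Vale.Agent.P066.Lab.H66.W3

set_option autoImplicit false

namespace Vale.Agent.Results.P066.ShareshianWachs

open Vale.Agent.P066

/-- **The Shareshian-Wachs conjecture.** For every weakly increasing `h` there are `c p ∈ ℕ[q]`, one
for each partition `p` of `n`, which are the coefficients of the (unique) expansion of the chromatic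
quasisymmetric function of the natural unit interval graph `G(h)` in the elementary basis,
simultaneously in any number `N` of variables. -/
theorem result {n : ℕ} (h : Fin n → Fin n) (hmono : Monotone h) :
    ∃ c : n.Partition → Polynomial ℤ, (∀ p k, 0 ≤ (c p).coeff k) ∧
      ∀ c' : n.Partition → Polynomial ℤ,
        (∀ N, chromaticQSF (unitIntervalGraph h) N =
          ∑ p : n.Partition,
            MvPolynomial.C (c' p) * MvPolynomial.esymmPart (Fin N) (Polynomial ℤ) p) ↔ c' = c :=
  Theta.shareshianWachs_of_LA_LS Lab.HN.laout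
    (Lab.LSW.w4 Lab.H402.w0 Lab.H69.w1 Lab.LSW.w2a Lab.LSW.w2b Lab.LSW.H66.w3) h hmono

end Vale.Agent.Results.P066.ShareshianWachs
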