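import Vale.Agent.P066.Theta.H675.Compose
import Vale.Agent.P066.Theta.H11.CoeffPos
import Vale.Agent.P066.Theta.Comb.S6b

set_option autoImplicit false

namespace Vale.Agent.Results.P066.ThetaConditional

open Vale.Agent.P066 Vale.Agent.P066.Theta

/-- The strong positivity theorem of Davison and Mandel for quantum theta functions implies the
Shareshian-Wachs conjecture for all natural unit interval graphs `G(h)`. -/
theorem result (DM : DavisonMandel) {n : ℕ} (h : Fin n → Fin n) (hmono : Monotone h) :
    ∃ c : n.Partition → Polynomial ℤ, (∀ p k, 0 ≤ (c p).coeff k) ∧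
      ∀ c' : n.Partition → Polynomial ℤ,
        (∀ N, chromaticQSF (unitIntervalGraph h) N =
          ∑ p : n.Partition,
            MvPolynomial.C (c' p) * MvPolynomial.esymmPart (Fin N) (Polynomial ℤ) p) ↔ c' = c :=
  sw_of_davisonMandel
    (fun _ _ _ h0 hsp _ _ hF γ => coeff_pos (Dil.extB_skew _ _) h0 hsp hF γ)
    (fun _ _ _ h0 hsp _ hf => string_of_face (Dil.extB_skew _ _) h0 hsp hf)
    (fun _ _ T hk _ μ γ => S6b.al_prod_Ek T hk μ γ) DM h hmono

end Vale.Agent.Results.P066.ThetaConditional
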