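import Vale.Agent.P066.H52.Edges

set_option autoImplicit false

namespace Vale.Agent.Results.P066.UnitIntervalOrders

open Finset Vale.Agent.P066.H52

open Classical in
/-- **The Shareshian-Wachs conjecture**, in Mathlib's vocabulary.
(1) Q1 for every natural unit interval graph `G(h)`.
(2) The form without numbering, for every finite linear order `V` and every graph `G` on `V` such
that an edge `x z` with `x < y < z` forces the edges `x y` and `y z`: the expansion of the chromatic
quasisymmetric function in the elementary basis has coefficients `c p ∈ ℕ[q]`, the same in every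
number `N` of variables and unique in `ℤ[q]`, of degree at most the number of edges, and
palindromic with centre half the number of edges. -/
theorem result :
    (∀ (n : ℕ) (h : Fin n → Fin n), Monotone h →
      ∃ c : n.Partition → Polynomial ℕ, ∀ c' : n.Partition → Polynomial ℤ,
        (∀ N : ℕ,
          ∑ f : (SimpleGraph.fromRel fun i j : Fin n => i < j ∧ j ≤ h i).Coloring (Fin N),
            MvPolynomial.C (Polynomial.X ^
                #{p : Fin n × Fin n | p.1 < p.2 ∧ p.2 ≤ h p.1 ∧ f p.1 < f p.2}) *
              ∏ a, MvPolynomial.X (f a) =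
          ∑ p : n.Partition,
            MvPolynomial.C (c' p) * MvPolynomial.esymmPart (Fin N) (Polynomial ℤ) p) ↔
        ∀ p, c' p = (c p).map (Nat.castRingHom ℤ)) ∧
    (∀ (V : Type) [Fintype V] [LinearOrder V] (G : SimpleGraph V),
      (∀ x y z, x < y → y < z → G.Adj x z → G.Adj x y ∧ G.Adj y z) →
      ∃ c : (Fintype.card V).Partition → Polynomial ℕ,
        (∀ c' : (Fintype.card V).Partition → Polynomial ℤ,
          (∀ N : ℕ,
            ∑ f : G.Coloring (Fin N),
              MvPolynomial.C (Polynomial.X ^
                  #{p : V × V | p.1 < p.2 ∧ G.Adj p.1 p.2 ∧ f p.1 < f p.2}) *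
                ∏ a, MvPolynomial.X (f a) =
            ∑ p : (Fintype.card V).Partition,
              MvPolynomial.C (c' p) * MvPolynomial.esymmPart (Fin N) (Polynomial ℤ) p) ↔
          ∀ p, c' p = (c p).map (Nat.castRingHom ℤ)) ∧
        ∀ p, (c p).natDegree ≤ #G.edgeFinset ∧
          ∀ i j, i + j = #G.edgeFinset → (c p).coeff i = (c p).coeff j) := by
  constructor
  · intro n h hmono
    obtain ⟨c, hc, _, _⟩ := main (OrderIso.refl (Fin n))
      (SimpleGraph.fromRel fun i j : Fin n => i < j ∧ j ≤ h i) h hmono
      (fun i j hij => fromRel_iff h i j hij)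
    refine ⟨c, fun c' => ?_⟩
    rw [← hc c']
    unfold Expands
    simp only [ascG_fromRel]
  · intro V _ _ G hG
    obtain ⟨h, hmono, hh⟩ := exists_h (monoEquivOfFin V rfl) G hG
    obtain ⟨c, hc, h1, h2⟩ := main (monoEquivOfFin V rfl) G h hmono hh
    refine ⟨c, fun c' => ?_, fun p => ⟨?_, fun i j hij => ?_⟩⟩
    · rw [← hc c']
      unfold Expands
      simp only [ascG]
    · rw [← edg_eq]
      exact h1 p
    · rw [← edg_eq] at hij
      exact h2 p i j hij

end Vale.Agent.Results.P066.UnitIntervalOrders
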